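import Vale.Agent.P225.Series.Defs

/-!
P225, module G: sums over points.
-/

noncomputable section

namespace Vale.Agent.P225

open SU2

/-- The six numbers that determine a point. -/
def pntCode (x : Pnt) : ℕ × ℕ × ℕ × ℕ × ℕ × ℕ :=
  (lab x 0, lab x 1, lab x 2, idx x 0, idx x 1, idx x 2)

theorem pntCode_injective : Function.Injective pntCode := by
  rintro ⟨⟨t, ht⟩, m⟩ ⟨⟨u, hu⟩, n⟩ h
  simp only [pntCode, Prod.mk.injEq, lab, idx] at h
  obtain ⟨a, b, c, d, e, f⟩ := h
  obtain rfl : t = u := by funext k; fin_cases k <;> assumption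
  have : m = n := by
    funext k
    apply Fin.ext
    fin_cases k <;> assumption
  rw [this]

theorem summable_inv_succ_pow_four :
    Summable fun n : ℕ => (((n : ℝ) + 1) ^ 4)⁻¹ := by
  have h := (summable_nat_add_iff (f := fun n : ℕ => ((n : ℝ) ^ 4)⁻¹) 1).2
    (Real.summable_nat_pow_inv.2 (by norm_num))
  simpa using h

/-- Polynomial decay of degree `24` in the size is summable. -/
theorem summable_ptSize : Summable fun x : Pnt => (((ptSize x : ℝ) + 1) ^ 24)⁻¹ := by
  have h1 := summable_inv_succ_pow_four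
  have h0 : ∀ n : ℕ, 0 ≤ (((n : ℝ) + 1) ^ 4)⁻¹ := fun n => by positivity
  have h2 := h1.mul_of_nonneg h1 h0 h0
  have n2 : ∀ q : ℕ × ℕ, 0 ≤ (((q.1 : ℝ) + 1) ^ 4)⁻¹ * (((q.2 : ℝ) + 1) ^ 4)⁻¹ :=
    fun q => by positivity
  have h3 := h1.mul_of_nonneg h2 h0 n2
  have h4 := h1.mul_of_nonneg h3 h0 (fun q => by positivity)
  have h5 := h1.mul_of_nonneg h4 h0 (fun q => by positivity)
  have h6 := h1.mul_of_nonneg h5 h0 (fun q => by positivity)
  refine (h6.comp_injective pntCode_injective).of_nonneg_of_le (fun x => by positivity) fun x => ?_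
  have hb : ∀ n : ℕ, n ≤ ptSize x → 0 < ((n : ℝ) + 1) ^ 4 ∧
      ((n : ℝ) + 1) ^ 4 ≤ ((ptSize x : ℝ) + 1) ^ 4 := fun n hn => by
    refine ⟨by positivity, pow_le_pow_left₀ (by positivity) ?_ 4⟩
    have : (n : ℝ) ≤ ptSize x := by exact_mod_cast hn
    linarith
  have hl : ∀ k : Fin 3, lab x k ≤ ptSize x := fun k =>
    Finset.single_le_sum (f := fun k => lab x k) (fun i _ => Nat.zero_le _) (Finset.mem_univ k)
  have hm : ∀ k : Fin 3, idx x k ≤ ptSize x := fun k =>
    (Nat.lt_succ_iff.1 (x.2 k).2).trans (hl k)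
  simp only [Function.comp_apply, pntCode, ← mul_inv]
  gcongr
  calc _ ≤ ((ptSize x : ℝ) + 1) ^ 4 * (((ptSize x : ℝ) + 1) ^ 4 * (((ptSize x : ℝ) + 1) ^ 4 *
        (((ptSize x : ℝ) + 1) ^ 4 * (((ptSize x : ℝ) + 1) ^ 4 * ((ptSize x : ℝ) + 1) ^ 4)))) := by
        gcongr
        · exact_mod_cast hl 0
        · exact_mod_cast hl 1
        · exact_mod_cast hl 2
        · exact_mod_cast hm 0
        · exact_mod_cast hm 1
        · exact_mod_cast hm 2
    _ = _ := by ring

end Vale.Agent.P225
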