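import Vale.Agent.P225.Main.PointSums
import Vale.Agent.P225.Count.Defs
import Vale.Agent.P225.System.Defs
import Vale.Agent.P225.Defs

/-!
P225, module G: from a family of coefficient systems on the band to the failure of the comparison.
-/

noncomputable section

namespace Vale.Agent.P225

open SU2 Filter Topology
open scoped ContDiff Quaternion

/-- The constant point. -/
def zeroPnt : Pnt := ⟨⟨0, by simp [LblOK]⟩, fun _ => 0⟩

/-- The number of band points. -/
theorem card_BPt : Fintype.card BPt = ∑ t ∈ band, mult t := by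
  have hlt : ∀ t ∈ band, ∀ k, t k < 20 + 1 := by
    intro t ht k
    have := (Finset.mem_filter.1 ht).1
    have h2 := Finset.mem_range.1 (Fintype.mem_piFinset.1 this k)
    omega
  have e : BPt ≃ (Σ t : band, MIdx t.1) :=
    { toFun := fun x => ⟨⟨lab x.1.out, x.2⟩, x.1.2⟩
      invFun := fun q =>
        ⟨⟨⟨fun k => ⟨q.1.1 k, hlt _ q.1.2 k⟩, (Finset.mem_filter.1 q.1.2).2.1⟩, q.2⟩, q.1.2⟩
      left_inv := fun x => rfl
      right_inv := fun q => rfl }
  rw [Fintype.card_congr e, Fintype.card_sigma, ← Finset.sum_coe_sort band]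
  refine Finset.sum_congr rfl fun t _ => ?_
  simp [mult]

theorem norm_qH_sq (q : Q4) : ‖qH q‖ ^ 2 = qnsq q := by
  rw [sq, ← Quaternion.normSq_eq_norm_mul_self, Quaternion.normSq_def']
  simp only [qH, qnsq, Fin.sum_univ_four]
  ring

theorem rad_nonneg (v : Pt) : 0 ≤ rad v := Real.sqrt_nonneg _

theorem coreTriple_norm {v : Pt} (hv : v ∈ chartU) :
    ‖coreTriple v 0‖ = 1 ∧ ‖coreTriple v 1‖ = rad v ∧ ‖coreTriple v 2‖ = 1 := by
  have hsq : ∀ q : Q4, ‖qH q‖ = Real.sqrt (qnsq q) := fun q => by
    rw [← norm_qH_sq, Real.sqrt_sq (norm_nonneg _)]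
  refine ⟨by simp [coreTriple], ?_, ?_⟩
  · simp [coreTriple, hsq, rad]
  · have hy : 0 < qnsq (yPart v) := by
      have hne : yPart v ≠ 0 := hv
      by_contra h
      push_neg at h
      refine hne (funext fun i => mul_self_eq_zero.1 (le_antisymm ?_ (mul_self_nonneg _)))
      exact (Finset.single_le_sum (fun j _ => mul_self_nonneg (yPart v j))
        (Finset.mem_univ i)).trans h
    have h1 : qnsq (thC v) = 1 := by
      have hs : Real.sqrt (qnsq (yPart v)) * Real.sqrt (qnsq (yPart v)) = qnsq (yPart v) :=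
        Real.mul_self_sqrt hy.le
      simp only [qnsq, thC, Pi.smul_apply, smul_eq_mul] at hs ⊢
      rw [show (fun i => ((Real.sqrt (∑ i, yPart v i * yPart v i))⁻¹ * yPart v i) *
          ((Real.sqrt (∑ i, yPart v i * yPart v i))⁻¹ * yPart v i)) =
        fun i => (Real.sqrt (∑ i, yPart v i * yPart v i) *
          Real.sqrt (∑ i, yPart v i * yPart v i))⁻¹ * (yPart v i * yPart v i) by
        funext i; rw [mul_inv]; ring]
      rw [← Finset.mul_sum, hs, inv_mul_cancel₀]
      exact hy.ne'
    simp [coreTriple, hsq, h1]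

/-- The terms of a series beyond the core. -/
theorem series_term_le {r₁ β : ℝ} (hr₁ : 0 < r₁) {c : Pnt → ℝ → ℂ} {ξ : Pnt → ℂ} {v : Pt}
    (hv : v ∈ chartU) (hr : r₁ ≤ rad v) (x : Pnt) :
    ‖radialFactor r₁ β c ξ x v * pfun x (coreTriple v)‖ ≤
      ((ptSize x : ℝ) + 1) ^ 3 * ‖c x (rad v)‖ := by
  obtain ⟨h0, h1, h2⟩ := coreTriple_norm hv
  have hp := pfun_norm_le x (coreTriple v)
  have hpow : ∏ k, ‖coreTriple v k‖ ^ lab x k = rad v ^ lab x 1 := by
    rw [Fin.prod_univ_three, h0, h1, h2]; simp
  rw [hpow] at hp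
  have hr0 : 0 < rad v := hr₁.trans_le hr
  have hl : ∀ k : Fin 3, ((lab x k : ℝ) + 1) ≤ (ptSize x : ℝ) + 1 := fun k => by
    have : lab x k ≤ ptSize x :=
      Finset.single_le_sum (f := fun k => lab x k) (fun i _ => Nat.zero_le _) (Finset.mem_univ k)
    have : (lab x k : ℝ) ≤ ptSize x := by exact_mod_cast this
    linarith
  have h3 : ∏ k, ((lab x k : ℝ) + 1) ≤ ((ptSize x : ℝ) + 1) ^ 3 := by
    rw [Fin.prod_univ_three, pow_succ, pow_succ, pow_one]
    exact mul_le_mul (mul_le_mul (hl 0) (hl 1) (by positivity) (by positivity)) (hl 2)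
      (by positivity) (by positivity)
  rw [norm_mul, radialFactor, if_neg (not_lt.2 hr), norm_div, norm_pow, Complex.norm_real,
    Real.norm_of_nonneg hr0.le]
  calc ‖c x (rad v)‖ / rad v ^ lab x 1 * ‖pfun x (coreTriple v)‖
      ≤ ‖c x (rad v)‖ / rad v ^ lab x 1 *
          (((ptSize x : ℝ) + 1) ^ 3 * rad v ^ lab x 1) := by
        gcongr
        exact hp.trans (mul_le_mul_of_nonneg_right h3 (by positivity))
    _ = _ := by field_simp

theorem summable_of_decay {c : Pnt → ℂ} {C : ℝ}
    (h : ∀ x, ((ptSize x : ℝ) + 1) ^ 27 * ‖c x‖ ≤ C) :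
    Summable fun x => ((ptSize x : ℝ) + 1) ^ 3 * ‖c x‖ := by
  refine (summable_ptSize.mul_left C).of_nonneg_of_le (fun x => by positivity) fun x => ?_
  rw [le_mul_inv_iff₀ (by positivity)]
  refine le_trans (le_of_eq ?_) (h x)
  ring

theorem pfun_zeroPnt (g : Fin 3 → ℍ[ℝ]) : ‖pfun zeroPnt g‖ = 1 ∧
    ∀ g', pfun zeroPnt g' = pfun zeroPnt g := by
  have hu : ∀ (n : MIdx (lab zeroPnt)) (g : Fin 3 → ℍ[ℝ]),
      ∏ k, rep (lab zeroPnt k) (g k) (n k) (zeroPnt.2 k) = 1 := by
    intro n g
    refine Finset.prod_eq_one fun k _ => ?_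
    have h1 : (n k : ℕ) = 0 := Nat.lt_one_iff.1 (n k).2
    simp [rep, lab, zeroPnt, h1]
  have hn : ∀ n : MIdx (lab zeroPnt), n = zeroPnt.2 := fun n => funext fun k => by
    exact Fin.ext ((Nat.lt_one_iff.1 (n k).2).trans rfl)
  have hv : ∀ g, pfun zeroPnt g = inv (lab zeroPnt) zeroPnt.2 := by
    intro g
    unfold pfun
    rw [Finset.sum_eq_single zeroPnt.2 (fun n _ h => absurd (hn n) h) (by simp), hu, mul_one]
    simp [lab, zeroPnt]
  refine ⟨?_, fun g' => by rw [hv, hv]⟩
  have h1 := inv_norm (t := lab zeroPnt) (by simp [lab, zeroPnt, LblOK])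
  rw [Finset.sum_eq_single zeroPnt.2 (fun n _ h => absurd (hn n) h) (by simp)] at h1
  rw [hv]
  nlinarith [norm_nonneg (inv (lab zeroPnt) zeroPnt.2)]

theorem laplacian_const (g : MetricField) (a : ℝ) (v : Pt) : laplacian g (fun _ => a) v = 0 := by
  have h1 : ∀ j, pd (fun _ => a) j = fun _ => 0 := fun j => by funext w; simp [pd]
  simp only [laplacian, h1]
  simp [pd]

/-- Real functions whose complex span contains many independent functions contain as many
independent ones. -/
theorem exists_real_independent {X : Type*} {ι : Type*} [Fintype ι] {κ : Type*} [Fintype κ]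
    (f : ι → X → ℝ) (u : κ → X → ℂ) (a : κ → ι → ℂ)
    (hu : ∀ b x, u b x = ∑ i, a b i * (f i x : ℂ)) (hind : LinearIndependent ℂ u) :
    ∃ (N : ℕ) (e : Fin N → ι), Fintype.card κ ≤ N ∧ LinearIndependent ℝ fun n => f (e n) := by
  classical
  obtain ⟨s, hs, hspan, hli⟩ := exists_linearIndependent ℝ (Set.range f)
  have : Fintype s := ((Set.finite_range f).subset hs).fintype
  choose pre hpre using fun y : s => hs y.2
  refine ⟨Fintype.card s, fun n => pre ((Fintype.equivFin s).symm n), ?_, ?_⟩
  · let V : Submodule ℂ (X → ℂ) := Submodule.span ℂ (Set.range fun y : s => fun x => ((y.1 x : ℝ) : ℂ))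
    have hf : ∀ i, (fun x => (f i x : ℂ)) ∈ V := by
      intro i
      have hi : f i ∈ Submodule.span ℝ s := hspan ▸ Submodule.subset_span ⟨i, rfl⟩
      refine Submodule.span_induction ?_ ?_ ?_ ?_ hi
      · exact fun y hy => Submodule.subset_span ⟨⟨y, hy⟩, rfl⟩
      · convert V.zero_mem using 1
        funext x; simp
      · intro p q _ _ hp hq
        convert V.add_mem hp hq using 1
        funext x; simp
      · intro r p _ hp
        convert V.smul_mem (r : ℂ) hp using 1
        funext x; simp
    have hmem : ∀ b, u b ∈ V := by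
      intro b
      rw [show u b = ∑ i, a b i • fun x => (f i x : ℂ) by funext x; simp [hu]]
      exact V.sum_mem fun i _ => V.smul_mem _ (hf i)
    have h2 : LinearIndependent ℂ (fun b => (⟨u b, hmem b⟩ : V)) :=
      LinearIndependent.of_comp V.subtype hind
    have := Module.Finite.span_of_finite ℂ
      (Set.finite_range fun y : s => fun x => ((y.1 x : ℝ) : ℂ))
    exact h2.fintype_card_le_finrank.trans (finrank_range_le_card _)
  · have := hli.comp _ (Fintype.equivFin s).symm.injective
    simpa [Function.comp_def, hpre] using this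

/-- The comparison fails once there is a family of coefficient systems on the band with growth
`20` which is the identity on band points at one radius. -/
theorem yauFails_of_coeff {g : MetricField} (hg : IsRicNonnegComplete chartU g)
    (hd : ∀ o ∈ chartU, ∀ v ∈ chartU, rad v - rad o ≤ rdist chartU g o v)
    {r₁ r₂ β r₀ : ℝ} (hr₀ : r₁ ≤ r₀) (c : BPt → Pnt → ℝ → ℂ) (ξ : BPt → Pnt → ℂ)
    (hc : ∀ b, IsCoeff g r₁ r₂ β (c b) (ξ b))
    (hgrowth : ∀ b, ∃ C : ℝ, ∀ r, 0 < r →
      ∑' x : Pnt, ((ptSize x : ℝ) + 1) ^ 3 * ‖c b x r‖ ≤ C * (1 + r) ^ 20)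
    (hdelta : ∀ b y : BPt, c b y.1.out r₀ = if b = y then 1 else 0) : YauFails := by
  classical
  -- base point on the core sphere
  let o : Pt := ![1, 0, 0, 0, 0, 0, 0]
  have hoy : qnsq (yPart o) = 1 := by
    simp [qnsq, yPart, o, Fin.sum_univ_four, Fin.castLE]
  have ho : o ∈ chartU := by
    intro h
    rw [h] at hoy
    simp [qnsq] at hoy
  have ho0 : rad o = 0 := by
    unfold rad xC
    rw [hoy]
    simp [qnsq, o, Fin.sum_univ_four]
  have hrd : ∀ v ∈ chartU, rad v ≤ rdist chartU g o v := fun v hv => by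
    have := hd o ho v hv; linarith
  -- radius r₀ points exist
  let U' := {v : Pt // v ∈ chartU}
  let u : Option BPt → chartU → ℂ := fun b v =>
    b.elim 1 fun b => seriesFun r₁ β (c b) (ξ b) v.1
  let f : Option BPt ⊕ Option BPt → chartU → ℝ :=
    Sum.elim (fun b v => (u b v).re) (fun b v => (u b v).im)
  let a : Option BPt → Option BPt ⊕ Option BPt → ℂ := fun b i =>
    Sum.elim (fun b' => if b' = b then 1 else 0) (fun b' => if b' = b then Complex.I else 0) i
  have hu : ∀ b x, u b x = ∑ i, a b i * (f i x : ℂ) := by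
    intro b x
    simp only [Fintype.sum_sum_type, a, f, Sum.elim_inl, Sum.elim_inr, ite_mul, zero_mul,
      Finset.sum_ite_eq', Finset.mem_univ, if_true, one_mul]
    rw [mul_comm Complex.I, Complex.re_add_im]
  have hind : LinearIndependent ℂ u := by
    rw [Fintype.linearIndependent_iff]
    intro l hl
    obtain ⟨b₀⟩ : Nonempty BPt := Fintype.card_pos_iff.1 (by
      have h := band_count
      have h26 : 0 < Nat.choose 26 20 := Nat.choose_pos (by norm_num)
      rw [card_BPt]
      omega)
    have hr₁ := (hc b₀).r₁_pos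
    let z : ℂ := pfun zeroPnt (fun _ => 1)
    have hz : z ≠ 0 := fun h => by simpa [z, h] using (pfun_zeroPnt (fun _ => 1)).1
    let C' : Pnt → ℝ → ℂ := fun x r =>
      (∑ b, l (some b) * c b x r) + if x = zeroPnt then l none / z else 0
    have hdec : ∀ p : ℕ, ∃ C : ℝ, ∀ x, ((ptSize x : ℝ) + 1) ^ p * ‖C' x r₀‖ ≤ C := by
      intro p
      choose D hD using fun b => (hc b).decay r₀ r₀ (hr₁.trans_le hr₀) le_rfl 0 p
      refine ⟨∑ b, ‖l (some b)‖ * D b + ((ptSize zeroPnt : ℝ) + 1) ^ p * ‖l none / z‖, fun x => ?_⟩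
      refine le_trans (mul_le_mul_of_nonneg_left (norm_add_le _ _) (by positivity)) ?_
      rw [mul_add]
      refine add_le_add ?_ ?_
      · refine le_trans (mul_le_mul_of_nonneg_left (norm_sum_le _ _) (by positivity)) ?_
        rw [Finset.mul_sum]
        refine Finset.sum_le_sum fun b _ => ?_
        rw [norm_mul, mul_left_comm]
        refine mul_le_mul_of_nonneg_left ?_ (norm_nonneg _)
        simpa using hD b x r₀ ⟨le_rfl, le_rfl⟩
      · split
        · subst x; rfl
        · simpa using by positivity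
    have hser : ∀ v ∈ chartV, rad v = r₀ → seriesFun r₁ β C' 0 v = 0 := by
      intro v hv hrv
      have hr : r₁ ≤ rad v := hrv ▸ hr₀
      have hsum : ∀ b, Summable fun x => radialFactor r₁ β (c b) (ξ b) x v * pfun x (coreTriple v) := by
        intro b
        obtain ⟨D, hD⟩ := (hc b).decay r₀ r₀ (hr₁.trans_le hr₀) le_rfl 0 27
        refine Summable.of_norm_bounded
          (summable_of_decay (c := fun x => c b x (rad v)) (C := D) fun x => ?_)
          (series_term_le hr₁ hv.1 hr)
        simpa [hrv] using hD x r₀ ⟨le_rfl, le_rfl⟩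
      have hterm : ∀ x, radialFactor r₁ β C' 0 x v * pfun x (coreTriple v) =
          (∑ b, l (some b) * (radialFactor r₁ β (c b) (ξ b) x v * pfun x (coreTriple v))) +
            if x = zeroPnt then l none else 0 := by
        intro x
        simp only [radialFactor, if_neg (not_lt.2 hr), C']
        rw [add_div, add_mul, Finset.sum_div, Finset.sum_mul]
        refine congr_arg₂ (· + ·) (Finset.sum_congr rfl fun b _ => by ring) ?_
        split
        · subst x
          rw [(pfun_zeroPnt (fun _ => 1)).2 (coreTriple v), show lab zeroPnt 1 = 0 from rfl,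
            pow_zero, div_one]
          exact div_mul_cancel₀ _ hz
        · simp
      have h := congrFun hl ⟨v, hv.1⟩
      simp only [Fintype.sum_option, Pi.add_apply, Finset.sum_apply, Pi.smul_apply, smul_eq_mul, u,
        Option.elim_none, Option.elim_some, Pi.one_apply, mul_one, Pi.zero_apply] at h
      have hite : Summable fun x : Pnt => if x = zeroPnt then l none else (0 : ℂ) :=
        (hasSum_ite_eq zeroPnt (l none)).summable
      unfold seriesFun
      rw [tsum_congr hterm, Summable.tsum_add (summable_sum fun b _ => (hsum b).mul_left _) hite,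
        Summable.tsum_finsetSum fun b _ => (hsum b).mul_left _, tsum_ite_eq]
      simp_rw [tsum_mul_left]
      rw [add_comm]
      exact h
    have hzero := seriesFun_injective hr₀ hr₁ hdec hser
    have hs : ∀ b, l (some b) = 0 := by
      intro b
      have h := hzero b.1.out
      have hne : b.1.out ≠ zeroPnt := fun h => by
        have h2 := (Finset.mem_filter.1 b.2).2.2.2
        rw [h] at h2
        exact h2 rfl
      simpa [C', hdelta, hne] using h
    intro i
    cases i with
    | some b => exact hs b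
    | none =>
      have h := hzero zeroPnt
      simpa [C', hs, hz] using h
  obtain ⟨N, e, hN, hli⟩ := exists_real_independent f u a hu hind
  let F : Option BPt ⊕ Option BPt → Pt → ℝ := Sum.elim
    (fun b v => (b.elim 1 fun b => seriesFun r₁ β (c b) (ξ b) v).re)
    (fun b v => (b.elim 1 fun b => seriesFun r₁ β (c b) (ξ b) v).im)
  have hbound : ∀ b, ∃ C : ℝ, 0 ≤ C ∧ ∀ v ∈ chartU,
      ‖seriesFun r₁ β (c b) (ξ b) v‖ ≤ C * (1 + rdist chartU g o v) ^ 20 := by
    intro b
    obtain ⟨C, hC⟩ := hgrowth b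
    have hC0 : 0 ≤ C := by
      have h := hC 1 one_pos
      have h1 : 0 ≤ ∑' x : Pnt, ((ptSize x : ℝ) + 1) ^ 3 * ‖c b x 1‖ :=
        tsum_nonneg fun x => by positivity
      have h2 : (0 : ℝ) < ((1 : ℝ) + 1) ^ 20 := by positivity
      nlinarith
    have hV : ∀ v ∈ chartV, ‖seriesFun r₁ β (c b) (ξ b) v‖ ≤ C * (1 + rad v) ^ 20 := by
      intro v hv
      have hr : 0 < rad v := by
        refine (rad_nonneg v).lt_of_ne fun h => hv.2 (funext fun i => ?_)
        have h2 : qnsq (xC v) ≤ 0 := Real.sqrt_eq_zero'.1 h.symm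
        exact mul_self_eq_zero.1 (le_antisymm ((Finset.single_le_sum
          (fun j _ => mul_self_nonneg (xC v j)) (Finset.mem_univ i)).trans h2) (mul_self_nonneg _))
      exact (seriesFun_bound (hc b) hv).trans (hC _ hr)
    refine ⟨C, hC0, fun v hv => le_trans (b := C * (1 + rad v) ^ 20) ?_ (mul_le_mul_of_nonneg_left
      (pow_le_pow_left₀ (by linarith [rad_nonneg v]) (by linarith [hrd v hv]) 20) hC0)⟩
    by_cases hx : xC v = 0
    · -- approach from outside the core sphere
      let w : ℝ → Pt := fun s => v + s • Pi.single 4 1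
      have hy : ∀ s, yPart (w s) = yPart v := fun s => by
        funext i
        have : Fin.castLE (show 4 ≤ 7 by norm_num) i ≠ (4 : Fin 7) := fun h => by
          have := congrArg Fin.val h
          have := i.2
          simp at *
          omega
        simp [yPart, w, this]
      have hxw : ∀ s, xC (w s) = ![0, s, 0, 0] := fun s => by
        have h0 := congrFun hx 0
        have h4 := congrFun hx 1
        have h5 := congrFun hx 2
        have h6 := congrFun hx 3
        simp [xC] at h0 h4 h5 h6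
        funext i
        fin_cases i <;> simp [xC, hy, w, h0, h4, h5, h6]
      have hrw : ∀ s, rad (w s) = |s| := fun s => by
        rw [rad, hxw]
        simp [qnsq, Fin.sum_univ_four, Real.sqrt_mul_self_eq_abs]
      have hwv : ∀ s : ℝ, s ≠ 0 → w s ∈ chartV := fun s hs =>
        ⟨by show yPart (w s) ≠ 0; rw [hy]; exact hv,
          fun h => hs (by simpa [hxw] using congrFun h 1)⟩
      have hwc : Continuous w := by fun_prop
      have hcont : ContinuousAt (fun s => ‖seriesFun r₁ β (c b) (ξ b) (w s)‖) 0 := by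
        have hopen : IsOpen chartU := hg.isOpen
        have h1 := ((seriesFun_contDiff (hc b)).continuousOn.continuousAt
          (hopen.mem_nhds (show w 0 ∈ chartU by simpa [w] using hv)))
        exact (h1.comp hwc.continuousAt).norm
      have hlim : ∀ᶠ s in 𝓝[≠] (0 : ℝ),
          ‖seriesFun r₁ β (c b) (ξ b) (w s)‖ ≤ C * (1 + |s|) ^ 20 := by
        filter_upwards [self_mem_nhdsWithin] with s hs
        simpa [hrw] using hV (w s) (hwv s hs)
      have h2 : Tendsto (fun s : ℝ => C * (1 + |s|) ^ 20) (𝓝[≠] 0) (𝓝 (C * (1 + |(0 : ℝ)|) ^ 20)) :=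
        tendsto_nhdsWithin_of_tendsto_nhds (Continuous.tendsto (by fun_prop) 0)
      have := le_of_tendsto_of_tendsto (tendsto_nhdsWithin_of_tendsto_nhds hcont.tendsto) h2 hlim
      simpa [w, rad, hx, qnsq] using this
    · exact hV v ⟨hv, hx⟩
  have hF : ∀ i, IsHarmonicGrowth chartU g o 20 (F i) := by
    have hconst : ∀ x : ℝ, |x| ≤ 1 → IsHarmonicGrowth chartU g o 20 fun _ => x := fun x hx => by
      refine ⟨contDiffOn_const, fun v _ => laplacian_const g x v, ⟨1, fun v hv => ?_⟩⟩
      rw [one_mul]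
      exact hx.trans (one_le_pow₀ (by linarith [hrd v hv, rad_nonneg v]))
    rintro ((_ | b) | (_ | b))
    · simpa [F] using hconst 1 (by simp)
    · obtain ⟨C, -, hC⟩ := hbound b
      exact ⟨Complex.reCLM.contDiff.comp_contDiffOn (seriesFun_contDiff (hc b)),
        fun v hv => (seriesFun_harmonic hg.smooth hg.posDef (hc b) hv).1,
        ⟨C, fun v hv => (Complex.abs_re_le_norm _).trans (hC v hv)⟩⟩
    · simpa [F] using hconst 0 (by simp)
    · obtain ⟨C, -, hC⟩ := hbound b
      exact ⟨Complex.imCLM.contDiff.comp_contDiffOn (seriesFun_contDiff (hc b)),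
        fun v hv => (seriesFun_harmonic hg.smooth hg.posDef (hc b) hv).2,
        ⟨C, fun v hv => (Complex.abs_im_le_norm _).trans (hC v hv)⟩⟩
  refine ⟨chartU, g, o, 20, N, fun n => F (e n), ho, by norm_num, hg, fun n => hF (e n), ?_, ?_⟩
  · have key : ∀ i, chartU.domRestrict (F i) = f i := by
      rintro ((_ | b) | (_ | b)) <;> rfl
    simpa only [key] using hli
  · refine lt_of_lt_of_le band_count (le_trans (le_of_eq ?_) hN)
    rw [Fintype.card_option, card_BPt, add_comm]

end Vale.Agent.P225
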